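/-
P235-LL (helper482).  `RowChild` from the structure lemma: second source.
-/
import Vale.Agent.P235.LL.H611.GRows
import Vale.Agent.P235.LL.H834.Struct0
import Vale.Agent.P235.H105.Hop

set_option linter.all false
set_option autoImplicit false

namespace Vale.Agent.P235.LL.H482

open SimpleGraph H510 Vale.Agent.P235.LL.H834

variable {V : Type}

theorem wconn_of_induce {G : SimpleGraph V} {K : Set V} (h : (G.induce K).Connected) :
    WConn G K := by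
  intro u hu v hv
  obtain ⟨p⟩ := h.preconnected ⟨u, hu⟩ ⟨v, hv⟩
  refine ⟨p.map (Embedding.induce K).toHom, ?_⟩
  intro z hz
  have hz' := Walk.support_map (Embedding.induce (G := G) K).toHom p ▸ hz
  obtain ⟨y, -, rfl⟩ := List.mem_map.1 hz'
  exact y.2

theorem induce_of_wconn {G : SimpleGraph V} {K : Set V} (hne : K.Nonempty) (h : WConn G K) :
    (G.induce K).Connected := by
  have : Nonempty K := hne.to_subtype
  refine ⟨fun a b => ?_⟩
  obtain ⟨p, hp⟩ := h a.1 a.2 b.1 b.2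
  exact ⟨p.induce K hp⟩

/-- the neighbours of a connected set which misses two vertices -/
theorem two_le_nb [Finite V] {G : SimpleGraph V} (hcut : ∀ v, (G.induce {x | x ≠ v}).Connected)
    {K : Set V} {x b1 b2 : V} (hx : x ∈ K) (hb1 : b1 ∉ K) (hb2 : b2 ∉ K) (hb : b1 ≠ b2) :
    2 ≤ (nb G K).ncard := by
  have key : ∀ z, z ∉ K → ∃ y ∈ nb G K, y ≠ z := by
    intro z hz
    obtain ⟨b, hbK, hbz⟩ : ∃ b, b ∉ K ∧ b ≠ z := by
      by_cases h : b1 = z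
      · exact ⟨b2, hb2, fun h' => hb (h.trans h'.symm)⟩
      · exact ⟨b1, hb1, h⟩
    have hxz : x ≠ z := fun h => hz (h ▸ hx)
    obtain ⟨p⟩ := (hcut z).preconnected ⟨x, hxz⟩ ⟨b, hbz⟩
    obtain ⟨d, -, h1, h2⟩ := p.exists_boundary_dart {v | v.1 ∈ K} hx hbK
    exact ⟨d.snd.1, ⟨h2, d.fst.1, h1, d.adj⟩, d.snd.2⟩
  obtain ⟨y1, hy1, -⟩ := key b1 hb1
  obtain ⟨y2, hy2, hne⟩ := key y1 hy1.1
  exact (Set.one_lt_ncard (Set.toFinite _)).2 ⟨y2, hy2, y1, hy1, hne⟩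

/-- the new pieces of a component -/
theorem mk_good {G : SimpleGraph V} {ℓ : Sym2 V → ℝ} (hℓ : ∀ e ∈ G.edgeSet, 0 < ℓ e)
    {U P : Set V} {w c s : V → ℝ} {θ : ℝ} (h0 : 0 < θ) (hsl : Slopes G ℓ U P c s)
    (hwi : Set.InjOn w P) (hwa : CondA G ℓ U P w)
    (hwb : ∀ b ∈ P, ∀ b' ∈ P, pathDist G ℓ b b' ≤ |w b - w b'|)
    {K : Set V} (hne : K.Nonempty) (hK : WConn G K) (hKs : ∀ v ∈ K, v ∈ U ∧ s v ≤ θ)
    (N : Fin 3 → Set V) (ty : Fin 3 → Bool)
    (hN : ∀ i, (N i).Nonempty) (h01 : Disjoint (N 0) (N 1))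
    (h2 : (N 2 = N 1 ∧ ty 2 = ty 1) ∨ (Disjoint (N 2) (N 0) ∧ Disjoint (N 2) (N 1)))
    (hcov : ∀ b, b ∈ nb G K ↔ ∃ i, b ∈ N i)
    (hT : ∀ i, ty i = true → (∀ b ∈ N i, b ∈ U ∨ b ∈ P) ∧ Set.InjOn c (N i) ∧
      (∀ b ∈ N i, ∀ b' ∈ N i, pathDist G ℓ b b' ≤ |c b - c b'| / θ) ∧
      Plc (TG G K (N i) fun v => c v / θ))
    (hF : ∀ i, ty i = false → N i ⊆ P ∧ Plc (TG G K (N i) w)) :
    Good G ℓ K N (fun i => if ty i = true then fun v => c v / θ else w) := by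
  have hnb : ∀ i, ∀ b ∈ N i, b ∈ nb G K := fun i b hb => (hcov b).2 ⟨i, hb⟩
  refine ⟨hne, hK, ?_, hN, ?_, ?_, ?_, ⟨0, 1, h01⟩, ?_, ?_, ?_, ?_⟩
  · exact fun i => Set.disjoint_left.2 fun v hv hv' => (hnb i v hv').1 hv
  · exact fun i b hb => (hnb i b hb).2
  · exact fun v hv b hb hadj => (hcov b).1 ⟨hb, v, hv, hadj⟩
  · have h12 : (N 1 = N 2 ∧ (if ty 1 = true then fun v => c v / θ else w) =
        (if ty 2 = true then fun v => c v / θ else w)) ∨ Disjoint (N 1) (N 2) := by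
      rcases h2 with ⟨h, h'⟩ | ⟨-, h⟩
      · exact Or.inl ⟨h.symm, by rw [h']⟩
      · exact Or.inr h.symm
    have h02 : Disjoint (N 0) (N 2) := by
      rcases h2 with ⟨h, -⟩ | ⟨h, -⟩
      · rw [h]
        exact h01
      · exact h.symm
    intro i i'
    fin_cases i <;> fin_cases i'
    · exact Or.inl ⟨rfl, rfl⟩
    · exact Or.inr h01
    · exact Or.inr h02
    · exact Or.inr h01.symm
    · exact Or.inl ⟨rfl, rfl⟩
    · exact h12
    · exact Or.inr h02.symm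
    · exact h12.imp (fun h => ⟨h.1.symm, h.2.symm⟩) fun h => h.symm
    · exact Or.inl ⟨rfl, rfl⟩
  · intro i
    cases hi : ty i with
    | true =>
      intro b hb b' hb' h
      have h3 : c b / θ = c b' / θ := h
      refine (hT i hi).2.1 hb hb' ?_
      field_simp at h3
      exact h3
    | false => exact hwi.mono (hF i hi).1
  · intro i
    cases hi : ty i with
    | true => exact condA_child hsl hℓ h0 hKs (hT i hi).1
    | false => exact hwa.mono (fun v hv => (hKs v hv).1) (hF i hi).1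
  · intro i
    cases hi : ty i with
    | true =>
      intro b hb b' hb'
      have h3 := (hT i hi).2.2.1 b hb b' hb'
      show pathDist G ℓ b b' ≤ |c b / θ - c b' / θ|
      rwa [← sub_div, abs_div, abs_of_pos h0]
    | false => exact fun b hb b' hb' => hwb b ((hF i hi).1 hb) b' ((hF i hi).1 hb')
  · intro i
    cases hi : ty i with
    | true => exact (hT i hi).2.2.2.2
    | false => exact (hF i hi).2.2

/-- section (3), `τ = 0` (helper834's statement) -/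
def Struct0 : Prop := ∀ (V : Type) [Finite V] (G : SimpleGraph V) (l : Sym2 V → ℝ) (U P : Set V)
  (w τ ct c s : V → ℝ) (θ : ℝ), G.Connected → (∀ e ∈ G.edgeSet, 0 < l e) →
  (G.induce U).Connected → (∃ v ∈ U, ∃ b ∈ P, G.Adj v b) →
  Disjoint U P → P.Nonempty → Set.InjOn w P → Plc (TG G U P w) → (∀ b ∈ P, τ b = 0) →
  IsCoord G l U P τ ct c s → 0 < θ → θ ≤ 1 →
  ∀ K : Set V, K ⊆ U → Disjoint K {v | v ∈ U ∧ θ ≤ s v} → (G.induce K).Connected →
    (∀ v ∈ K, ∀ y ∈ U, G.Adj v y → y ∈ K ∨ y ∈ {v | v ∈ U ∧ θ ≤ s v}) → 2 ≤ (nb G K).ncard →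
    ∃ (N : Fin 3 → Set V) (ty : Fin 3 → Bool), (∀ i, (N i).Nonempty) ∧ Disjoint (N 0) (N 1) ∧
      ((N 2 = N 1 ∧ ty 2 = ty 1) ∨ (Disjoint (N 2) (N 0) ∧ Disjoint (N 2) (N 1))) ∧
      (∀ b, b ∈ nb G K ↔ ∃ i, b ∈ N i) ∧
      (∀ i, ty i = true → (∀ b ∈ N i, b ∈ U ∧ θ ≤ s b) ∧ Set.InjOn c (N i) ∧
        (∀ b ∈ N i, ∀ b' ∈ N i, pathDist G l b b' ≤ |c b - c b'| / θ) ∧
        Plc (TG G K (N i) fun v => c v / θ)) ∧
      (∀ i, ty i = false → N i ⊆ P ∧ Plc (TG G K (N i) w))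

theorem rowChild_of (hS0 : Struct0) : RowChild := by
  intro V _ G ℓ hS D hD k j x hx
  classical
  obtain ⟨hG, hC⟩ := hD
  obtain ⟨ct, hct⟩ := hC k
  obtain ⟨X, hX⟩ : ∃ X, X = D.vis k (j + 1) := ⟨_, rfl⟩
  rw [← hX] at hx ⊢
  obtain ⟨K, hK⟩ : ∃ K, K = compSet G X x := ⟨_, rfl⟩
  rw [← hK]
  obtain ⟨θ, hθ⟩ : ∃ θ : ℝ, θ = (2 ^ (j + 1))⁻¹ := ⟨_, rfl⟩
  have hp : (0 : ℝ) < 2 ^ (j + 1) := by positivity
  have hp1 : (1 : ℝ) ≤ 2 ^ (j + 1) := one_le_pow₀ (by norm_num)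
  have h0 : 0 < θ := by rw [hθ]; positivity
  have h1 : θ ≤ 1 := by rw [hθ]; exact inv_le_one_of_one_le₀ hp1
  have hdiv : ∀ r : ℝ, r / θ = 2 ^ (j + 1) * r := by
    intro r
    rw [hθ, div_inv_eq_mul, mul_comm]
  have hXM : ∀ v ∈ D.U, (v ∈ X ↔ θ ≤ D.s k v) := by
    intro v hv
    rw [hX, hθ, inv_le_iff_one_le_mul₀ hp]
    constructor
    · intro h
      linarith [(h hv).2, mul_comm (D.s k v) (2 ^ (j + 1))]
    · intro h _
      exact ⟨Nat.succ_le_succ (Nat.zero_le _), by linarith [mul_comm (D.s k v) (2 ^ (j + 1))]⟩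
  have hXU : ∀ v, v ∉ D.U → v ∈ X := by
    intro v hv
    rw [hX]
    exact fun h => absurd h hv
  have hKX : ∀ v ∈ K, v ∉ X := by
    intro v hv
    rw [hK] at hv
    exact ReachOff.right hv
  have hKU : K ⊆ D.U := fun v hv => by
    by_contra h
    exact hKX v hv (hXU v h)
  have hKs : ∀ v ∈ K, v ∈ D.U ∧ D.s k v ≤ θ := fun v hv =>
    ⟨hKU hv, le_of_not_ge fun h => hKX v hv ((hXM v (hKU hv)).2 h)⟩
  have hKM : Disjoint K {v | v ∈ D.U ∧ θ ≤ D.s k v} :=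
    Set.disjoint_left.2 fun v hv h => hKX v hv ((hXM v h.1).2 h.2)
  have hKc : (G.induce K).Connected := by
    rw [hK]
    exact comp_connected hx
  have hKnb : ∀ v ∈ K, ∀ y ∈ D.U, G.Adj v y → y ∈ K ∨ y ∈ {v | v ∈ D.U ∧ θ ≤ D.s k v} := by
    intro v hv y hy hadj
    by_cases h : y ∈ X
    · exact Or.inr ⟨hy, (hXM y hy).1 h⟩
    · left
      rw [hK] at hv ⊢
      exact comp_closed hv hadj h
  have hxK : x ∈ K := by
    rw [hK]
    exact ReachOff.refl hx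
  have hne : K.Nonempty := ⟨x, hxK⟩
  have h2 : 2 ≤ (nb G K).ncard := by
    obtain ⟨i, i', hd⟩ := hG.two
    obtain ⟨b1, hb1⟩ := hG.pne i
    obtain ⟨b2, hb2⟩ := hG.pne i'
    refine two_le_nb hS.cut hxK (b1 := b1) (b2 := b2) ?_ ?_ ?_
    · exact fun h => Set.disjoint_left.1 (hG.out i) (hKU h) hb1
    · exact fun h => Set.disjoint_left.1 (hG.out i') (hKU h) hb2
    · rintro rfl
      exact Set.disjoint_left.1 hd hb1 hb2
  have hGc := hS.conn
  have hl := hS.pos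
  have hUP := hG.out k.1
  have hPne := hG.pne k.1
  have hUc : (G.induce D.U).Connected := induce_of_wconn hG.ne hG.conn
  have hPnb : D.P k.1 ⊆ nb G D.U := fun b hb =>
    ⟨fun h => Set.disjoint_left.1 hUP h hb, hG.foot k.1 b hb⟩
  have hΓ : Plc (TG G D.U (D.P k.1) (D.w k.1)) := ⟨tg_conn hUc hPne hPnb, hG.c k.1⟩
  have hcP : ∀ b ∈ D.P k.1, D.c k b = D.tau k b := hct.cP
  have hsl : Slopes G ℓ D.U (D.P k.1) (D.c k) (D.s k) :=
    ⟨hct.edge, fun u b hu hb hadj => by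
      rw [hcP b hb]
      exact hct.dart u b hu hb hadj⟩
  have hcv : ∀ b, b ∈ D.U ∨ b ∈ D.P k.1 → D.c k b / θ = 2 ^ (j + 1) * D.cv k b := by
    intro b hb
    rw [hdiv]
    unfold Dom.cv
    by_cases hbU : b ∈ D.U
    · rw [if_pos hbU]
    · rw [if_neg hbU, hcP b (hb.resolve_left hbU)]
  obtain ⟨N, ty, hN, h01, h12, hcov, hT, hF, hty⟩ : ∃ (N : Fin 3 → Set V) (ty : Fin 3 → Bool),
      (∀ i, (N i).Nonempty) ∧ Disjoint (N 0) (N 1) ∧
      ((N 2 = N 1 ∧ ty 2 = ty 1) ∨ (Disjoint (N 2) (N 0) ∧ Disjoint (N 2) (N 1))) ∧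
      (∀ b, b ∈ nb G K ↔ ∃ i, b ∈ N i) ∧
      (∀ i, ty i = true → (∀ b ∈ N i, b ∈ D.U ∨ b ∈ D.P k.1) ∧ Set.InjOn (D.c k) (N i) ∧
        (∀ b ∈ N i, ∀ b' ∈ N i, pathDist G ℓ b b' ≤ |D.c k b - D.c k b'| / θ) ∧
        Plc (TG G K (N i) fun v => D.c k v / θ)) ∧
      (∀ i, ty i = false → N i ⊆ D.P k.1 ∧ Plc (TG G K (N i) (D.w k.1))) ∧
      (∀ i, ty i = false → k.2 = false) := by
    cases hk : k.2 with
    | true =>
      have hτ : ∀ b ∈ D.P k.1, D.tau k b = D.w k.1 b := fun b _ => by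
        unfold Dom.tau
        rw [if_pos hk]
      obtain ⟨N, hN, h01, hcov, hMP, hI⟩ := struct_w hGc hl hUP hPne (hG.inj k.1) hΓ hτ hct
        (hG.b k.1) h0 h1 hKU hKM hKc hKnb h2
      have hMP' : ∀ i, ∀ b ∈ N i, b ∈ D.U ∨ b ∈ D.P k.1 := fun i b hb =>
        (hMP i b hb).imp_left fun h => h.1
      refine ⟨![N 0, N 1, N 1], fun _ => true, ?_, h01, Or.inl ⟨rfl, rfl⟩, ?_, ?_,
        fun _ h => absurd h (by simp), fun _ h => absurd h (by simp)⟩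
      · intro i
        fin_cases i
        · exact hN 0
        · exact hN 1
        · exact hN 1
      · intro b
        rw [hcov b]
        constructor
        · rintro ⟨i, hi⟩
          fin_cases i
          · exact ⟨0, hi⟩
          · exact ⟨1, hi⟩
        · rintro ⟨i, hi⟩
          fin_cases i
          · exact ⟨0, hi⟩
          · exact ⟨1, hi⟩
          · exact ⟨1, hi⟩
      · intro i _
        fin_cases i
        · exact ⟨hMP' 0, hI 0⟩
        · exact ⟨hMP' 1, hI 1⟩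
        · exact ⟨hMP' 1, hI 1⟩
    | false =>
      have hτ : ∀ b ∈ D.P k.1, D.tau k b = 0 := fun b _ => by
        unfold Dom.tau
        rw [if_neg (by simp [hk])]
      obtain ⟨b0, hb0⟩ := hPne
      obtain ⟨v0, hv0, hadj0⟩ := hG.foot k.1 b0 hb0
      obtain ⟨N, ty, hN, h01, h12, hcov, hT, hF⟩ := hS0 V G ℓ D.U (D.P k.1) (D.w k.1) (D.tau k) ct
        (D.c k) (D.s k) θ hGc hl hUc ⟨v0, hv0, b0, hb0, hadj0⟩ hUP ⟨b0, hb0⟩ (hG.inj k.1) hΓ hτ
        hct h0 h1 K hKU hKM hKc hKnb h2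
      exact ⟨N, ty, hN, h01, h12, hcov, fun i hi => ⟨fun b hb => Or.inl ((hT i hi).1 b hb).1,
        (hT i hi).2⟩, hF, fun _ _ => rfl⟩
  refine ⟨N, _, mk_good hl h0 hsl (hG.inj k.1) (hG.a k.1) (hG.b k.1) hne (wconn_of_induce hKc) hKs
    N ty hN h01 h12 hcov hT hF, ?_, ?_⟩
  · intro i b hb
    cases hi : ty i with
    | true => exact (hT i hi).1 b hb
    | false => exact Or.inr ((hF i hi).1 hb)
  · intro i
    cases hi : ty i with
    | true =>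
      left
      intro b hb
      exact hcv b ((hT i hi).1 b hb)
    | false => exact Or.inr ⟨hty i hi, (hF i hi).1⟩

/-- **CHILD**: one move of a good domain -/
theorem rowChild : RowChild := by
  refine rowChild_of ?_
  intro V _ G l U P w τ ct c s θ hGc hl hUc hf hUP hP hi hΓ hτ hc h0 h1 K hKU hKM hKc hKnb h2
  obtain ⟨N, ty, a1, a2, a3, a4, a5⟩ := struct_0 hGc hl hUP hP hi hUc hf hΓ hτ hc h0 h1 hKU hKM
    hKc hKnb h2
  exact ⟨N, ty, a1, a2, a3, a4, fun i => (a5 i).1, fun i => (a5 i).2⟩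

end Vale.Agent.P235.LL.H482
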